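import Vale.Agent.Results.P126.A_dimfree
import Vale.Agent.Results.P126.A_tradeoff
import Vale.Agent.Results.P126.A_unconditional

open scoped Pointwise

namespace Vale.Agent.Results.P126.AAA_union

open Vale.Agent.Lib.P126G Vale.Agent.Lib.P126U in
/-- All duality theorems for metric entropy in one statement: absolute constants for pairs of
1-unconditional bodies, and for all origin-symmetric bodies the trade-off between scale and power
and the bound with losses polylogarithmic in the entropy, all with no dependence on the dimension. -/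
theorem result (n : ℕ) (K L : Set (Fin n → ℝ)) :
    (UBody K → UBody L →
      (1 / 500 : ℝ) * Real.log (covNum (polar L) ((128 : ℝ) • polar K)) ≤ Real.log (covNum K L) ∧
        Real.log (covNum K L) ≤ 500 * Real.log (covNum (polar L) ((128 : ℝ)⁻¹ • polar K))) ∧
    (SymBody K → SymBody L →
      (∀ (s : ℕ) (_ : 1 ≤ s) (q : ℝ) (_ : 1 ≤ q),
        ((covNum (polar L) ((4096 * (s : ℝ))⁻¹ • polar K) : ℝ) ≤ Real.exp q →
          Real.log (covNum K L) ≤
            60000000 * (s : ℝ) * Real.log ((s : ℝ) + 1) * q ^ (1 + 1 / (s : ℝ))) ∧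
        ((covNum K L : ℝ) ≤ Real.exp q →
          Real.log (covNum (polar L) ((4096 * (s : ℝ)) • polar K)) ≤
            60000000 * (s : ℝ) * Real.log ((s : ℝ) + 1) * q ^ (1 + 1 / (s : ℝ)))) ∧
      (∀ (q : ℝ) (_ : 1 ≤ q),
        ((covNum (polar L) ((8192 * Real.log (q + 2))⁻¹ • polar K) : ℝ) ≤ Real.exp q →
          Real.log (covNum K L) ≤ 40000000 * Real.log (q + 2) ^ 2 * q) ∧
        ((covNum K L : ℝ) ≤ Real.exp q →
          Real.log (covNum (polar L) ((8192 * Real.log (q + 2)) • polar K)) ≤
            40000000 * Real.log (q + 2) ^ 2 * q))) :=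
  ⟨fun hK hL => Vale.Agent.Results.P126.A_unconditional.result n K L hK hL,
    fun hK hL => ⟨fun s hs q hq => Vale.Agent.Results.P126.A_tradeoff.result n K L hK hL s hs q hq,
      fun q hq => Vale.Agent.Results.P126.A_dimfree.result n K L hK hL q hq⟩⟩

end Vale.Agent.Results.P126.AAA_union
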